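import Vale.Agent.P354SA.FD
import Vale.Agent.P354LF.Hj
import Vale.Agent.P354SL.Mon

/-!
FEND, first part: the open conditions along the rays, the initial slice, and the extension.
-/

open scoped ContDiff
open Set Filter Topology

noncomputable section

namespace Vale.Agent.P354FE

open Vale.Agent.P354n (R4)
open Vale.Agent.P354H (X3)
open Vale.Agent.P354R (Met Pull)
open Vale.Agent.P354XE (Tw pb)
open Vale.Agent.P354YQ (SA JB JD Sol)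
open Vale.Agent.P354SA
open Vale.Agent.P354LF (xp_ap xp_cd sa_ph sa_pq ph_fd wv_cd ray)
open Vale.Agent.P354SL (wd_open)

theorem sl_fd {E : Type} [NormedAddCommGroup E] [NormedSpace ℝ E] {Y : R4 → E} {s : ℝ} {x : X3}
    (h : SA Y (s, x)) : HasFDerivAt (fun y => Y (s, y))
      ((fderiv ℝ Y (s, x)).comp (ContinuousLinearMap.inr ℝ ℝ X3)) x :=
  h.diff.hasFDerivAt.comp x (hasFDerivAt_prodMk_right s x)

theorem sl_sa {E : Type} [NormedAddCommGroup E] [NormedSpace ℝ E] {Y : R4 → E} {s : ℝ} {x : X3}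
    (h : SA Y (s, x)) : SA (fun y => Y (s, y)) x :=
  SA.comp (u := Y) (f := fun y : X3 => ((s, y) : R4)) h (.of (by fun_prop))

theorem wk_sub {w k k' : ℝ} (hw : 0 < w) (h : k ≤ k') : Wk w k ⊆ Wk w k' := fun x m =>
  ⟨⟨by nlinarith [m.1.1], by nlinarith [m.1.2]⟩, by linarith [m.2]⟩

theorem wk_open (w k : ℝ) : IsOpen (Wk w k) := wd_open _ _ _

structure Dt where
  n : ℕ
  C1 : ℝ
  C2 : ℝ
  C3 : ℝ
  K0 : ℝ
  K : ℝ
  P : ℝ
  b : ℝ
  T : ℝ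
  w : ℝ
  s2 : ℝ
  r2 : ℝ
  l : ℝ
  f : ℝ → ℝ
  g : Tw
  D : Set R4
  Ω : Set R4
  Y0 : R4 → E5
  Y : R4 → E5
  S : X3 → ℝ

namespace Dt

variable (c : Dt)

def F (z : R4) : ℝ := fi c.l c.T c.f (Ph c.Y z)
def η0 (x : X3) : Y2 := (c.Y (c.s2, x)).2.1

structure Ok : Prop where
  fl : Fl c.n c.C1 c.K0 c.K c.P c.b c.T c.w c.s2 c.r2 c.l c.f c.g c.D c.Y0 c.Ω c.Y c.S
  ex : Exit (c.n + 4) c.C1 c.C2 c.C3 c.w c.s2 c.r2 c.g c.Y0
  met : IsOpen c.D ∧ Met c.g c.D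
  C1 : 1 ≤ c.C1
  w : 0 < c.w ∧ 200 * c.C1 ^ 2 * c.w ≤ 1
  P : 0 < c.P
  s2 : 0 ≤ c.s2 ∧ 10 * c.s2 + 10 ≤ c.T
  r2 : 2 * c.C1 + 4 ≤ c.r2
  l : |c.l - 1| ≤ 1 / 100
  f : ∀ r ≥ c.r2 / 2, SA c.f r ∧ (c.T / 2 ≤ r → |deriv c.f r - 1| ≤ 1 / 50)
  S : ∀ x ∈ Wk c.w 2, |c.S x - 2 * c.T| ≤ c.T / 50

/-- The open conditions. -/
structure Gd (z : R4) : Prop where
  mem : z ∈ c.Ω
  r : c.r2 - c.C1 - 1 + 49 / 100 * (z.1 - c.s2) < (c.Y z).1
  η : ‖(c.Y z).2.1 - c.η0 z.2‖ < (100 * c.C1)⁻¹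
  p : ‖(c.Y z).2.2‖ < 2 * c.P
  kap : kv c.Y e1 z ∈ Ioo (2 * c.C1)⁻¹ (2 * c.C1)
  near : ‖fderiv ℝ (fun y => (c.Y (z.1, y)).2.1 - c.η0 y) z.2‖ < (8 * c.C1)⁻¹

structure Gb (z : R4) : Prop where
  W : |(Wv c.g (pq c.Y z)).2.1 - 1 / 2| < 1 / 50
  V : ‖(Wv c.g (pq c.Y z)).2.2‖ * (1 + ‖(c.Y z).2.2‖) < (300 * c.C1 ^ 2)⁻¹

/-- The conditions hold a little beyond the initial slice. -/
def Ext (δ : ℝ) : Prop := 0 < δ ∧ ∀ x ∈ Wk c.w 1, ∀ s ∈ Icc c.s2 (c.S x + 2 * δ),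
  c.Gd (s, x) ∧ (3 / 2 * c.T ≤ s → c.Gb (s, x))

namespace Ok

variable {c} (h : c.Ok) {z : R4} {x : X3}
include h

theorem sa (m : z ∈ c.Ω) : SA c.Y z := (h.fl.sol z m).1.sm

theorem mem2 (m : x ∈ Wk c.w 2) : (c.s2, x) ∈ c.Ω := (h.fl.eq (c.s2, x) m (by simp)).1

theorem ev0 (m : z.2 ∈ Wk c.w 2) (a : |z.1 - c.s2| < 1) : c.Y =ᶠ[𝓝 z] c.Y0 := by
  have o1 : ∀ᶠ y : R4 in 𝓝 z, y.2 ∈ Wk c.w 2 := continuousAt_snd ((wk_open _ _).mem_nhds m)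
  have o2 : ∀ᶠ y : R4 in 𝓝 z, |y.1 - c.s2| < 1 :=
    ContinuousAt.eventually_lt (by fun_prop) continuousAt_const a
  filter_upwards [o1, o2] with y b d using (h.fl.eq y b d).2

theorem ph0 (m : z.2 ∈ Wk c.w 2) (a : |z.1 - c.s2| < 1) :
    fderiv ℝ (Ph c.Y) z = fderiv ℝ (Ph c.Y0) z :=
  EventuallyEq.fderiv_eq ((h.ev0 m a).mono fun y e => by simp only [Ph, e])

theorem kv0 (m : z.2 ∈ Wk c.w 2) (a : |z.1 - c.s2| < 1) (v : R4) : kv c.Y v z = kv c.Y0 v z := by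
  rw [kv, kv, h.ph0 m a, (h.ev0 m a).self_of_nhds]

/-- The form kv along the rays. -/
theorem kv_eq (m : z ∈ c.Ω) : (∀ a, kv c.Y (ey a) z = 0) ∧ 0 < kv c.Y e1 z := by
  obtain ⟨-, -, m2, m3⟩ := h.fl.sol z m
  have k := (ray c.g c.D c.Y h.met.1 h.met.2).2 z.2 c.s2 z.1 fun s a =>
    ⟨(h.fl.sol _ (m3 s a)).1, (h.fl.sol _ (m3 s a)).2.1⟩
  have a : |((c.s2, z.2) : R4).1 - c.s2| < 1 := by simp
  refine ⟨fun i => (k (ey i) (by fin_cases i <;> rfl)).trans ?_, (k e1 rfl).symm ▸ ?_⟩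
  · rw [h.kv0 (z := (c.s2, z.2)) m2 a, (h.ex.strip (c.s2, z.2) m2 a).2.2.1, mul_zero]
  · rw [h.kv0 (z := (c.s2, z.2)) m2 a]
    exact mul_pos (Real.exp_pos _)
      ((inv_pos.2 (by linarith [h.C1])).trans_le (h.ex.jets _ m2).2.2.2.1.1)

theorem nul (m : z ∈ c.Ω) : Nul (pb (Ph c.Y) c.g) z := by
  obtain ⟨-, k1, k2⟩ := (ray c.g c.D c.Y h.met.1 h.met.2).1 z (h.fl.sol z m).1 (h.fl.sol z m).2.1
  exact ⟨k1, fun a => by rw [(k2 (ey a) (by fin_cases a <;> rfl)).2, (h.kv_eq m).1, mul_zero]⟩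

theorem η0_sa (m : x ∈ Wk c.w 2) : SA c.η0 x :=
  (sl_sa (h.sa (h.mem2 m))).mono fun _ k => k.snd.fst

theorem η0_ref (m : x ∈ Wk c.w 2) :
    ‖fderiv ℝ c.η0 x‖ ≤ c.C1 ∧ ∀ y : Y2, ‖y‖ ≤ c.C1 * ‖fderiv ℝ c.η0 x (0, y)‖ := by
  have a : |((c.s2, x) : R4).1 - c.s2| < 1 := by simp
  have s := h.sa (h.mem2 m)
  have d : fderiv ℝ c.η0 x = _ := (sl_fd s).snd.fst.fderiv
  refine ⟨ContinuousLinearMap.opNorm_le_bound _ (by linarith [h.C1]) fun v => ?_, fun y => ?_⟩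
  · have j := (h.ex.jets x m).1
    have e : (fun y => c.Y (c.s2, y)) =ᶠ[𝓝 x] fun y => c.Y0 (c.s2, y) :=
      (by fun_prop : ContinuousAt (fun y : X3 => ((c.s2, y) : R4)) x).eventually
        (h.ev0 (z := (c.s2, x)) m a)
    have b := (JD.fderiv (k := 0) (j.congr e)).zero
    rw [(sl_fd s).fderiv] at b
    rw [d]
    exact ((norm_fst_le _).trans (norm_snd_le _)).trans
      ((ContinuousLinearMap.le_opNorm _ v).trans (by gcongr))
  · have := (h.ex.strip (c.s2, x) m a).2.2.2.2.2.2 y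
    rwa [dη, ← h.ph0 (z := (c.s2, x)) m a, ph_fd s, d] at *

theorem η0_bil (m : x ∈ Wk c.w 2) {x' : X3} (m' : x' ∈ Wk c.w 2) (e : x.1 = x'.1) :
    ‖x.2 - x'.2‖ ≤ c.C1 * ‖c.η0 x - c.η0 x'‖ := by
  rw [η0, η0, (h.fl.eq (c.s2, x) m (by simp)).2, (h.fl.eq (c.s2, x') m' (by simp)).2]
  exact (h.ex.jets x m).2.2.2.2.2 x' m' e

theorem gd_ev (k : c.Gd z) : ∀ᶠ y in 𝓝 z, c.Gd y := by
  have s := (h.sa k.mem).at
  have t := s.continuousAt
  have e := (h.η0_sa (h.fl.sol z k.mem).2.2.1).at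
  have e' : ContinuousAt (fun y : R4 => c.η0 y.2) z := e.continuousAt.comp continuousAt_snd
  have κ : ContinuousAt (kv c.Y e1) z :=
    ((xp_cd.contDiffAt.comp z s.snd.snd).clm_apply
      ((sa_ph (h.sa k.mem)).fderiv.at.clm_apply contDiffAt_const)).continuousAt
  have n : ContDiffAt ℝ ∞
      (fun u : R4 => fderiv ℝ (fun y => (c.Y (u.1, y)).2.1 - c.η0 y) u.2) z :=
    ContDiffAt.fderiv (f := fun (u : R4) y => (c.Y (u.1, y)).2.1 - c.η0 y) (g := fun u => u.2)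
      (n := ∞) ((ContDiffAt.comp (g := c.Y) (z, z.2) (f := fun u : R4 × X3 => (u.1.1, u.2)) s
        (by fun_prop)).snd.fst.sub
        (ContDiffAt.comp (g := c.η0) (z, z.2) e contDiffAt_snd)) contDiffAt_snd (by simp)
  filter_upwards [h.fl.opn.mem_nhds k.mem,
    ContinuousAt.eventually_lt (f := fun y : R4 => c.r2 - c.C1 - 1 + 49 / 100 * (y.1 - c.s2))
      (by fun_prop) t.fst k.r,
    ContinuousAt.eventually_lt (t.snd.fst.sub e').norm continuousAt_const k.η,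
    ContinuousAt.eventually_lt t.snd.snd.norm continuousAt_const k.p,
    κ (isOpen_Ioo.mem_nhds k.kap),
    ContinuousAt.eventually_lt n.continuousAt.norm continuousAt_const k.near]
    with y a1 a2 a3 a4 a5 a6 using ⟨a1, a2, a3, a4, a5, a6⟩

theorem gb_ev (m : z ∈ c.Ω) (k : c.Gb z) : ∀ᶠ y in 𝓝 z, c.Gb y := by
  have t := (h.sa m).cont
  have W : ContinuousAt (fun y => Wv c.g (pq c.Y y)) z :=
    (wv_cd h.met.1 h.met.2 (h.fl.sol z m).2.1).continuousAt.comp (sa_pq (h.sa m)).cont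
  filter_upwards [ContinuousAt.eventually_lt (W.snd.fst.sub continuousAt_const).abs
    continuousAt_const k.W, ContinuousAt.eventually_lt
      (W.snd.snd.norm.mul (t.snd.snd.norm.const_add 1)) continuousAt_const k.V]
    with y a1 a2 using ⟨a1, a2⟩

theorem gd_of (m : x ∈ Wk c.w 2) {s : ℝ} (a : s ∈ Icc c.s2 (c.S x)) :
    c.Gd (s, x) ∧ (3 / 2 * c.T ≤ s → c.Gb (s, x)) := by
  obtain ⟨b1, b2, -, -, b3⟩ := h.fl.hit x m
  obtain ⟨k, -⟩ := b3 s a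
  have C := h.C1
  have i : ∀ u v : ℝ, 0 < u → u < v → v⁻¹ < u⁻¹ := fun u v p q => inv_strictAnti₀ p q
  refine ⟨⟨(h.fl.sol _ b2).2.2.2 s (uIcc_of_le b1.1 ▸ a), ?_, k.η.trans_lt (i _ _ ?_ ?_),
    k.p.1.trans_lt (by linarith [h.P]), ⟨(i _ _ ?_ ?_).trans_le k.kap.1, k.kap.2.trans_lt ?_⟩,
    k.near.trans_lt (i _ _ ?_ ?_)⟩, fun t => ⟨(k.bot t).1.trans_lt (by norm_num),
      (k.bot t).2.trans_lt (i _ _ (by positivity) (by nlinarith))⟩⟩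
  · have := (abs_le.1 k.r).1
    simp only [rb] at this ⊢
    linarith [a.1]
  all_goals linarith

theorem F_sa (k : c.Gd z) (a : c.s2 ≤ z.1) : SA c.F z :=
  (SA.of (f := fun z : R4 => c.l * (c.T - z.1)) (by fun_prop)).add
    (SA.comp (u := c.f) (f := fun z => (c.Y z).1) (h.f _ (by linarith [k.r, h.r2, h.C1])).1
      ((h.sa k.mem).mono fun _ k => k.fst))

theorem F_fd (k : c.Gd z) (a : c.s2 ≤ z.1) (v : R4) :
    fderiv ℝ c.F z v = -c.l * v.1 + deriv c.f (c.Y z).1 * (fderiv ℝ c.Y z v).1 := by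
  have d := (((hasFDerivAt_fst (𝕜 := ℝ) (p := z)).const_sub c.T).const_mul c.l).add
    ((h.f (c.Y z).1 (by linarith [k.r, h.r2, h.C1])).1.diff.hasDerivAt.comp_hasFDerivAt z
      (h.sa k.mem).diff.hasFDerivAt.fst)
  rw [show fderiv ℝ c.F z = _ from d.fderiv]
  simp

theorem Y_e0 (m : z ∈ c.Ω) : (fderiv ℝ c.Y z e0).1 = (Wv c.g (pq c.Y z)).2.1 ∧
    (fderiv ℝ c.Y z e0).2.1 = (Wv c.g (pq c.Y z)).2.2 := by
  rw [(h.fl.sol z m).1.ode.self_of_nhds]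
  exact ⟨rfl, rfl⟩

theorem f_bd (k : c.Gd z) (a : 3 / 2 * c.T ≤ z.1) : |deriv c.f (c.Y z).1 - 1| ≤ 1 / 50 :=
  (h.f _ (by linarith [k.r, h.r2, h.C1, h.s2.1, h.s2.2])).2
    (by linarith [k.r, h.r2, h.C1, h.s2.1, h.s2.2])

theorem F_e0 (k : c.Gd z) (b : c.Gb z) (a : 3 / 2 * c.T ≤ z.1) :
    fderiv ℝ c.F z e0 ∈ Icc (-(3 / 5) : ℝ) (-(2 / 5)) := by
  obtain ⟨u1, u2⟩ := abs_le.1 (h.f_bd k a)
  obtain ⟨v1, v2⟩ := abs_lt.1 b.W
  obtain ⟨w1, w2⟩ := abs_le.1 h.l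
  rw [h.F_fd k (by linarith [h.s2.1, h.s2.2]), (h.Y_e0 k.mem).1, show e0.1 = 1 from rfl]
  constructor <;> nlinarith

theorem F_mono {a b : ℝ} (ab : a ≤ b) (lo : 3 / 2 * c.T ≤ a)
    (k : ∀ s ∈ Icc a b, c.Gd (s, x) ∧ c.Gb (s, x)) :
    -(3 / 5) * (b - a) ≤ c.F (b, x) - c.F (a, x) ∧ c.F (b, x) - c.F (a, x) ≤ -(2 / 5) * (b - a) := by
  have d : ∀ s ∈ Icc a b, HasDerivAt (fun s => c.F (s, x)) (fderiv ℝ c.F (s, x) e0) s :=
    fun s m => by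
      have u : c.s2 ≤ s := by linarith [h.s2.1, h.s2.2, m.1]
      have d := (h.F_sa (k s m).1 u).diff.hasFDerivAt
      exact d.comp_hasDerivAt (f := fun s => ((s, x) : R4)) s
        ((hasDerivAt_id s).prodMk (hasDerivAt_const s x))
  have c0 : ContinuousOn (fun s => c.F (s, x)) (Icc a b) := fun s m =>
    (d s m).continuousAt.continuousWithinAt
  have d0 : DifferentiableOn ℝ (fun s => c.F (s, x)) (interior (Icc a b)) := fun s m =>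
    (d s (interior_subset m)).differentiableAt.differentiableWithinAt
  have e : ∀ s ∈ interior (Icc a b), deriv (fun s => c.F (s, x)) s ∈
      Icc (-(3 / 5) : ℝ) (-(2 / 5)) := fun s m => by
    have m' := interior_subset m
    rw [(d s m').deriv]
    exact h.F_e0 (k s m').1 (k s m').2 (lo.trans m'.1)
  exact ⟨(convex_Icc a b).mul_sub_le_image_sub_of_le_deriv c0 d0 (fun s m => (e s m).1) a
    (left_mem_Icc.2 ab) b (right_mem_Icc.2 ab) ab,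
    (convex_Icc a b).image_sub_le_mul_sub_of_deriv_le c0 d0 (fun s m => (e s m).2) a
    (left_mem_Icc.2 ab) b (right_mem_Icc.2 ab) ab⟩

theorem S_lo (m : x ∈ Wk c.w 2) : 99 / 50 * c.T ≤ c.S x ∧ c.S x ≤ 101 / 50 * c.T := by
  obtain ⟨a, b⟩ := abs_le.1 (h.S x m)
  constructor <;> linarith

/-- The initial slice is smooth. -/
theorem S_sa (R : ROOT) (m : x ∈ Wk c.w 2) : SA c.S x ∧ ∀ᶠ y in 𝓝 x, c.F (c.S y, y) = 0 := by
  obtain ⟨b1, b2, b3, b4, -⟩ := h.fl.hit x m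
  have t1 := h.s2.1
  have t2 := h.s2.2
  have lo : 3 / 2 * c.T < c.S x := by linarith [(h.S_lo m).1]
  obtain ⟨k, k'⟩ := h.gd_of m (right_mem_Icc.2 b1.1)
  obtain ⟨a, a0, ha⟩ := Metric.eventually_nhds_iff.1 ((h.gd_ev k).and ((h.gb_ev b2 (k' lo.le)).and
    (ContinuousAt.eventually_lt (f := fun _ : R4 => 3 / 2 * c.T) continuousAt_const
      continuousAt_fst lo)))
  refine R c.F c.S x a a0 (h.F_sa k b1.1) b3 (by linarith [(h.F_e0 k (k' lo.le) lo.le).2]) ?_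
  have tube : ∀ᶠ y in 𝓝 x, ∀ s ∈ Icc c.s2 (c.S x - a), 0 < c.F (s, y) :=
    isCompact_Icc.eventually_forall_of_forall_eventually fun s i =>
      ContinuousAt.eventually_lt (g := fun u : X3 × ℝ => c.F (u.2, u.1)) continuousAt_const
        (ContinuousAt.comp (g := c.F) (h.F_sa (h.gd_of m ⟨i.1, by linarith [i.2]⟩).1 i.1).cont
          (by fun_prop)) (b4 s ⟨i.1, by linarith [i.2]⟩)
  filter_upwards [tube, Metric.ball_mem_nhds x a0, (wk_open _ _).mem_nhds m] with y t d my s u e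
  obtain ⟨c1, -, c3, c4, -⟩ := h.fl.hit y my
  have q : ∀ s', |s' - c.S x| < a → _ := fun s' i => ha (y := (s', y)) (max_lt i d)
  have l1 : c.S x - a < c.S y := not_le.1 fun i => (t _ ⟨c1.1, i⟩).ne' c3
  have l2 : c.S y ≤ s := not_lt.1 fun i => (c4 s ⟨by linarith [(q s u).2.2], i⟩).ne' e
  obtain ⟨u1, u2⟩ := abs_lt.1 u
  have q' : ∀ s' ∈ Icc (c.S y) s, |s' - c.S x| < a := fun s' i =>
    abs_lt.2 ⟨by linarith [i.1], by linarith [i.2]⟩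
  have := (h.F_mono l2 (q _ (q' _ (left_mem_Icc.2 l2))).2.2.le fun s' i =>
    ⟨(q _ (q' _ i)).1, (q _ (q' _ i)).2.1⟩).2
  rw [e, show c.F (c.S y, y) = 0 from c3] at this
  linarith

theorem ex_ext (R : ROOT) : ∃ δ, c.Ext δ := by
  have w0 := h.w.1
  have sub : Icc (-6 * c.w) (7 * c.w) ×ˢ Metric.closedBall (0 : Y2) 8 ⊆ Wk c.w 2 := fun x m =>
    ⟨⟨by linarith [m.1.1], by linarith [m.1.2]⟩, by linarith [mem_closedBall_zero_iff.1 m.2]⟩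
  have k : ∀ᶠ t in 𝓝 (0 : ℝ), ∀ x ∈ Icc (-6 * c.w) (7 * c.w) ×ˢ Metric.closedBall (0 : Y2) 8,
      c.Gd (c.S x + t, x) ∧ c.Gb (c.S x + t, x) :=
    (isCompact_Icc.prod (isCompact_closedBall _ _)).eventually_forall_of_forall_eventually
      fun x i => by
        have m := sub i
        obtain ⟨k, k'⟩ := h.gd_of m (right_mem_Icc.2 (h.fl.hit x m).1.1)
        have s : ContinuousAt (fun u : ℝ × X3 => c.S u.2) (0, x) :=
          (h.S_sa R m).1.cont.comp continuousAt_snd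
        have t : Tendsto (fun u : ℝ × X3 => ((c.S u.2 + u.1, u.2) : R4)) (𝓝 (0, x))
            (𝓝 (c.S x, x)) := by
          simpa using ((s.add continuousAt_fst).prodMk continuousAt_snd).tendsto
        exact t.eventually ((h.gd_ev k).and (h.gb_ev k.mem
          (k' (by linarith [(h.S_lo m).1, h.s2.1, h.s2.2]))))
  obtain ⟨a, a0, ha⟩ := Metric.eventually_nhds_iff.1 k
  refine ⟨a / 3, by positivity, fun x m s i => ?_⟩
  rcases le_total s (c.S x) with u | u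
  · exact h.gd_of (wk_sub w0 one_le_two m) ⟨i.1, u⟩
  · have := ha (y := s - c.S x) (by
      rw [Real.dist_eq, sub_zero, abs_lt]
      constructor <;> linarith [i.2]) x ⟨⟨by linarith [m.1.1], by linarith [m.1.2]⟩,
        mem_closedBall_zero_iff.2 (by linarith [m.2])⟩
    rw [add_sub_cancel] at this
    exact ⟨this.1, fun _ => this.2⟩

end Ok

end Dt

end Vale.Agent.P354FE
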