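import Vale.Agent.P354FE.Geo

/-!
FEND, second part: slices, injectivity, and the pull back.
-/

open scoped ContDiff
open Set Filter Topology

noncomputable section

namespace Vale.Agent.P354FE

open Vale.Agent.P354n (R4)
open Vale.Agent.P354H (X3)
open Vale.Agent.P354R (Met Pull)
open Vale.Agent.P354XE (Tw pb)
open Vale.Agent.P354YQ (SA JB JD Sol)
open Vale.Agent.P354SA
open Vale.Agent.P354LF (xp_ap sa_ph ph_fd)
open Vale.Agent.P354SL (wd_open mon)

theorem wd_cvx (a b r : ℝ) : Convex ℝ (Wd a b r) := by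
  rw [show Wd a b r = Ioo a b ×ˢ Metric.ball (0 : Y2) r from Set.ext fun x => by simp [Wd]]
  exact (convex_Ioo a b).prod (convex_ball _ _)

namespace Dt.Ok

variable {c : Dt} (h : c.Ok) {z : R4} {x : X3} {δ : ℝ}
include h

theorem inv_of (k : c.Gd z) (y : Y2) : ‖y‖ ≤ 2 * c.C1 * ‖dη c.Y z y‖ := by
  have m := (h.fl.sol z k.mem).2.2.1
  have s : SA c.Y (z.1, z.2) := h.sa k.mem
  have d := ((sl_fd s).snd.fst.sub (h.η0_sa m).diff.hasFDerivAt).fderiv
  have n := (ContinuousLinearMap.le_opNorm _ ((0, y) : X3)).trans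
    (mul_le_mul_of_nonneg_right k.near.le (norm_nonneg _))
  have e : fderiv ℝ c.η0 z.2 (0, y) = dη c.Y z y -
      fderiv ℝ (fun y => (c.Y (z.1, y)).2.1 - c.η0 y) z.2 (0, y) := by
    rw [show fderiv ℝ (fun y => (c.Y (z.1, y)).2.1 - c.η0 y) z.2 = _ from d, dη, ph_fd s]
    simp
  have b := (h.η0_ref m).2 y
  have C := h.C1
  rw [e] at b
  have b2 := b.trans (mul_le_mul_of_nonneg_left (norm_sub_le_of_le le_rfl n) (by linarith))
  rw [show ‖((0, y) : X3)‖ = ‖y‖ by simp [Prod.norm_def], mul_add, ← mul_assoc,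
    show c.C1 * (8 * c.C1)⁻¹ = 1 / 8 by field_simp] at b2
  nlinarith [norm_nonneg (dη c.Y z y)]

theorem fd_inj (m : z ∈ c.Ω) (i : ∀ y, dη c.Y z y = 0 → y = 0) :
    Function.Injective (fderiv ℝ (Ph c.Y) z) := (injective_iff_map_eq_zero _).2 fun A e => by
  obtain ⟨k1, k2⟩ := h.kv_eq m
  have a1 : A.1 = 0 := by
    have := congrArg Prod.fst e
    rwa [ph_fd (h.sa m)] at this
  have eA : A = A.2.1 • e1 + A.2.2.1 • ey 0 + A.2.2.2 • ey 1 := by
    ext <;> simp [e1, ey, a1]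
  have a2 : A.2.1 = 0 := by
    have t : kv c.Y A z = 0 := by rw [kv, e, map_zero]
    have u := k1 0
    have v := k1 1
    rw [kv] at t u v k2
    rw [eA] at t
    simp only [map_add, map_smul, u, v, smul_eq_mul, mul_zero, add_zero] at t
    exact (mul_eq_zero.1 t).resolve_right k2.ne'
  have eB : A = (0, 0, A.2.2) := Prod.ext a1 (Prod.ext a2 rfl)
  rw [eB, i A.2.2 (by rw [dη, ← eB, e]; rfl)]
  rfl

theorem sx_of {S' : X3 → ℝ} {P' : ℝ} (k : c.Gd (S' x, x)) (s : SA S' x)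
    (p : ‖(c.Y (S' x, x)).2.2‖ ≤ P')
    (sl : (∀ ξ, fderiv ℝ S' x ξ = 0) ∨ (c.Gb (S' x, x) ∧ 3 / 2 * c.T ≤ S' x ∧
      ∃ θ, ∀ᶠ y in 𝓝 x, c.F (S' y, y) = θ)) : Sx c.C1 P' c.Y S' c.η0 x := by
  have m : x ∈ Wk c.w 2 := (h.fl.sol _ k.mem).2.2.1
  have C := h.C1
  refine ⟨⟨h.sa k.mem, s, h.η0_sa m⟩, ⟨(h.kv_eq k.mem).1, Ioo_subset_Icc_self k.kap⟩, p,
    k.near.le, h.η0_ref m, ?_⟩
  rcases sl with e | ⟨b, lo, θ, e⟩
  · exact ⟨0, by simp, by simp, by simp; positivity, fun ξ => by rw [e, zero_mul]⟩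
  have u : c.s2 ≤ S' x := by linarith [h.s2.1, h.s2.2]
  obtain ⟨u1, u2⟩ := abs_le.1 (h.f_bd k lo)
  obtain ⟨v1, v2⟩ := abs_lt.1 b.W
  obtain ⟨w1, w2⟩ := abs_le.1 h.l
  obtain ⟨y1, y2⟩ := h.Y_e0 k.mem
  have V := b.V
  rw [← y1] at v1 v2
  rw [← y2] at V
  generalize hf : deriv c.f (c.Y (S' x, x)).1 = φ at *
  generalize hW : (fderiv ℝ c.Y (S' x, x) e0).1 = W at *
  have n : 2 / 5 ≤ c.l - φ * W := by nlinarith
  have n0 : 0 < c.l - φ * W := by linarith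
  have a0 : 0 ≤ φ / (c.l - φ * W) := div_nonneg (by linarith) n0.le
  have a3 : φ / (c.l - φ * W) ≤ 3 := (div_le_iff₀ n0).2 (by linarith)
  refine ⟨φ / (c.l - φ * W), abs_le.2 ⟨by linarith, a3⟩, ⟨mul_nonneg a0 (by linarith),
    by nlinarith⟩, ?_, fun ξ => ?_⟩
  · rw [abs_of_nonneg a0, mul_assoc]
    refine (mul_le_mul a3 V.le (by positivity) (by norm_num)).trans_eq ?_
    field_simp
    norm_num
  · have d := (h.F_sa k u).diff.hasFDerivAt.comp x (f := fun y : X3 => ((S' y, y) : R4))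
      (s.diff.hasFDerivAt.prodMk (hasFDerivAt_id x))
    have d0 := (hasFDerivAt_const (𝕜 := ℝ) θ x).congr_of_eventuallyEq e
    have t : fderiv ℝ c.F (S' x, x) (fderiv ℝ S' x ξ, ξ) = 0 :=
      DFunLike.congr_fun (d.unique d0) ξ
    rw [h.F_fd k u, hf, show ((fderiv ℝ S' x ξ, ξ) : R4) = fderiv ℝ S' x ξ • e0 + (0, ξ) by
      ext <;> simp [e0], map_add, map_smul] at t
    simp only [Prod.fst_add, Prod.smul_fst, smul_eq_mul, hW, show e0.1 = 1 from rfl] at t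
    field_simp
    linarith

/-- Points of a slice with the same image are equal. -/
theorem key (L : SLC) {S' : X3 → ℝ} {P' : ℝ}
    (k : ∀ y ∈ Wk c.w 1, Sx c.C1 P' c.Y S' c.η0 y) (m : x ∈ Wk c.w 0) {x' : X3}
    (m' : x' ∈ Wk c.w 0) (e1 : (c.Y (S' x, x)).1 = (c.Y (S' x', x')).1)
    (e2 : (c.Y (S' x, x)).2.1 = (c.Y (S' x', x')).2.1) : x = x' := by
  have w0 := h.w.1
  have C := h.C1
  have sub : Wd (-(5 + 0) * c.w) ((6 + 0) * c.w) (15 / 2 + 0 / 2 + 1 / 4) ⊆ Wk c.w 1 :=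
    fun x m => ⟨⟨by linarith [m.1.1], by linarith [m.1.2]⟩, by linarith [m.2]⟩
  have sub2 := fun x (m : x ∈ _) => wk_sub w0 one_le_two (sub m)
  have s := (L c.C1 C P' c.Y S' c.η0 _ (wd_cvx _ _ _) (fun y i => k y (sub i))
    fun y i y' i' e => h.η0_bil (sub2 y i) (sub2 y' i') e).1
  have M := mon _ _ _ _ _ _ _ _ (by linarith) (by nlinarith [h.w.2]) s
  have i : 0 < (12 * c.C1)⁻¹ := inv_pos.2 (by linarith)
  have e : x.1 = x'.1 := by
    rcases le_total x.1 x'.1 with u | u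
    · have := M x m x' m' u
      simp only [e1, e2, sub_self, norm_zero, mul_zero, sub_zero] at this
      nlinarith
    · have := M x' m' x m u
      simp only [e1, e2, sub_self, norm_zero, mul_zero, sub_zero] at this
      nlinarith
  have up : Wk c.w 0 ⊆ Wd (-(5 + 0) * c.w) ((6 + 0) * c.w) (15 / 2 + 0 / 2 + 1 / 4) :=
    fun x m => ⟨m.1, by linarith [m.2]⟩
  have b := s.bil x (up m) x' (up m') e
  simp only [e2, sub_self, norm_zero, mul_zero, norm_le_zero_iff, sub_eq_zero] at b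
  exact Prod.ext e b

theorem mono' (E : c.Ext δ) (m : x ∈ Wk c.w 1) {a b : ℝ} (lo : 3 / 2 * c.T ≤ a) (ab : a ≤ b)
    (hi : b ≤ c.S x + 2 * δ) :
    -(3 / 5) * (b - a) ≤ c.F (b, x) - c.F (a, x) ∧ c.F (b, x) - c.F (a, x) ≤ -(2 / 5) * (b - a) :=
  h.F_mono ab lo fun s i =>
    have k := E.2 x m s ⟨by linarith [h.s2.1, h.s2.2, i.1], i.2.trans hi⟩
    ⟨k.1, k.2 (lo.trans i.1)⟩

theorem F_S (m : x ∈ Wk c.w 1) : c.F (c.S x, x) = 0 :=
  (h.fl.hit x (wk_sub h.w.1 one_le_two m)).2.2.1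

/-- The level sets of F. -/
theorem level (R : ROOT) (E : c.Ext δ) {θ : ℝ} (t1 : -(3 / 5) * δ < θ) (t2 : θ ≤ 3 / 20 * c.T) :
    ∃ S' : X3 → ℝ, ∀ y ∈ Wk c.w 1, Sx c.C1 (2 * c.P) c.Y S' c.η0 y ∧
      ∀ s ∈ Icc (3 / 2 * c.T) (c.S y + 2 * δ), c.F (s, y) = θ → s = S' y := by
  have d0 := E.1
  have a1 := h.s2.1
  have a2 := h.s2.2
  have sub := fun y (m : y ∈ Wk c.w 1) => wk_sub h.w.1 one_le_two m
  have ex : ∀ y ∈ Wk c.w 1, ∃ s ∈ Ioo (3 / 2 * c.T) (c.S y + 2 * δ), c.F (s, y) = θ := by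
    intro y m
    obtain ⟨l1, l2⟩ := h.S_lo (sub y m)
    have u1 := (h.mono' E m le_rfl (b := c.S y) (by linarith) (by linarith)).2
    have u2 := (h.mono' E m (a := c.S y) (by linarith) (by linarith) le_rfl).2
    rw [h.F_S m] at u1 u2
    exact intermediate_value_Ioo' (f := fun s => c.F (s, y)) (by linarith) (fun s i =>
      (ContinuousAt.comp (g := c.F) (f := fun s => ((s, y) : R4))
        (h.F_sa (E.2 y m s ⟨by linarith [i.1], i.2⟩).1
        (by linarith [i.1] : c.s2 ≤ s)).cont (by fun_prop)).continuousWithinAt)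
      ⟨by linarith, by linarith⟩
  choose! S' h1 h2 using ex
  have un : ∀ y ∈ Wk c.w 1, ∀ s ∈ Icc (3 / 2 * c.T) (c.S y + 2 * δ), c.F (s, y) = θ →
      s = S' y := fun y m s i e => by
    rcases le_total s (S' y) with u | u
    · have := (h.mono' E m i.1 u (h1 y m).2.le).2
      rw [e, h2 y m] at this
      linarith
    · have := (h.mono' E m (h1 y m).1.le u i.2).2
      rw [e, h2 y m] at this
      linarith
  refine ⟨S', fun y m => ⟨?_, un y m⟩⟩
  obtain ⟨b1, b2⟩ := h1 y m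
  have u : c.s2 ≤ S' y := by linarith
  obtain ⟨k, k'⟩ := E.2 y m _ ⟨u, b2.le⟩
  have s := h.F_sa k u
  obtain ⟨r1, r2⟩ := R (fun z => c.F z - θ) S' y
    (min (S' y - 3 / 2 * c.T) ((c.S y + 2 * δ - S' y) / 2)) (lt_min (by linarith) (by linarith))
    (s.sub (.of contDiff_const)) (sub_eq_zero.2 (h2 y m)) (by
      rw [fderiv_sub_const]
      linarith [(h.F_e0 k (k' b1.le) b1.le).2]) (by
      filter_upwards [(wk_open _ _).mem_nhds m, ContinuousAt.eventually_lt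
        (f := fun _ => c.S y - (c.S y + 2 * δ - S' y) / 2) continuousAt_const
        (h.S_sa R (sub y m)).1.cont (by linarith)] with y' m' v s i e
      obtain ⟨i1, i2⟩ := abs_lt.1 i
      have j1 := min_le_left (S' y - 3 / 2 * c.T) ((c.S y + 2 * δ - S' y) / 2)
      have j2 := min_le_right (S' y - 3 / 2 * c.T) ((c.S y + 2 * δ - S' y) / 2)
      exact un y' m' s ⟨by linarith, by linarith⟩ (sub_eq_zero.1 e))
  exact h.sx_of k r1 k.p.le (.inr ⟨k' b1.le, b1.le, θ, r2.mono fun _ e => sub_eq_zero.1 e⟩)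

theorem inj (R : ROOT) (L : SLC) (E : c.Ext δ) :
    InjOn (Ph c.Y) {z ∈ RK c.w (c.s2 - 1) δ c.S | z.2 ∈ Wk c.w 0 ∧ c.s2 ≤ z.1} := by
  rintro ⟨s, x⟩ ⟨⟨m, -, u⟩, m0, lo⟩ ⟨s', x'⟩ ⟨⟨m', -, u'⟩, m0', -⟩ e
  obtain rfl : s = s' := congrArg Prod.fst e
  have e1 : (c.Y (s, x)).1 = (c.Y (s, x')).1 := congrArg (·.2.1) e
  have e2 : (c.Y (s, x)).2.1 = (c.Y (s, x')).2.1 := congrArg (·.2.2) e
  have d0 := E.1
  have a1 := h.s2.1
  have a2 := h.s2.2
  have sub := fun y (m : y ∈ Wk c.w 1) => wk_sub h.w.1 one_le_two m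
  refine congrArg _ ?_
  rcases le_total s (9 / 5 * c.T) with t | t
  · refine h.key L (S' := fun _ => s) (P' := 2 * c.P) (fun y i => ?_) m0 m0' e1 e2
    have k := (E.2 y i s ⟨lo, by linarith [(h.S_lo (sub y i)).1]⟩).1
    exact h.sx_of k (.of contDiff_const) k.p.le (.inl fun ξ => by simp)
  · change s < c.S x + δ at u
    change s < c.S x' + δ at u'
    obtain ⟨l1, l2⟩ := h.S_lo (sub x m)
    have b : -(3 / 5) * δ < c.F (s, x) ∧ c.F (s, x) ≤ 3 / 20 * c.T := by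
      rcases le_total s (c.S x) with v | v
      · obtain ⟨v1, v2⟩ := h.mono' E m (by linarith) v (by linarith)
        rw [h.F_S m] at v1 v2
        constructor <;> linarith
      · obtain ⟨v1, v2⟩ := h.mono' E m (by linarith) v (by linarith)
        rw [h.F_S m] at v1 v2
        constructor <;> linarith
    obtain ⟨S', k⟩ := h.level R E b.1 b.2
    have q := (k x m).2 s ⟨by linarith, by linarith⟩ rfl
    have q' := (k x' m').2 s ⟨by linarith, by linarith⟩ (by rw [F, F, e])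
    exact h.key L (fun y i => (k y i).1) m0 m0' (by rw [← q, ← q', e1]) (by rw [← q, ← q', e2])

theorem rk (E : c.Ext δ) (m : z ∈ RK c.w (c.s2 - 1) δ c.S) :
    z ∈ c.Ω ∧ (∀ y, dη c.Y z y = 0 → y = 0) ∧ (c.s2 ≤ z.1 → c.Gd z) := by
  have g : c.s2 ≤ z.1 → c.Gd z := fun a => (E.2 z.2 m.1 z.1 ⟨a, by linarith [m.2.2, E.1]⟩).1
  have m2 := wk_sub h.w.1 one_le_two m.1
  rcases le_or_gt c.s2 z.1 with a | a
  · exact ⟨(g a).mem, fun y e => by simpa [e] using h.inv_of (g a) y, g⟩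
  · have b : |z.1 - c.s2| < 1 := abs_lt.2 ⟨by linarith [m.2.1], by linarith⟩
    refine ⟨(h.fl.eq z m2 b).1, fun y e => ?_, g⟩
    have := (h.ex.strip z m2 b).2.2.2.2.2.2 y
    rw [dη, ← h.ph0 m2 b, ← dη, e] at this
    simpa using this

theorem pull (R : ROOT) (E : c.Ext δ) :
    Pull (Ph c.Y) (pb (Ph c.Y) c.g) (RK c.w (c.s2 - 1) δ c.S) c.g c.D := by
  refine ⟨isOpen_iff_mem_nhds.2 fun z m => ?_, h.met.1, h.met.2,
    fun z m => (sa_ph (h.sa (h.rk E m).1)).at.contDiffWithinAt,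
    fun z m => (h.fl.sol z (h.rk E m).1).2.1.1,
    fun z m => h.fd_inj (h.rk E m).1 (h.rk E m).2.1, fun _ _ _ _ => rfl⟩
  have s : ContinuousAt (fun y : R4 => c.S y.2 + δ) z :=
    ((h.S_sa R (wk_sub h.w.1 one_le_two m.1)).1.cont.comp continuousAt_snd).add continuousAt_const
  filter_upwards [continuousAt_snd ((wk_open _ _).mem_nhds m.1), ContinuousAt.eventually_lt
    (f := fun _ => c.s2 - 1) continuousAt_const continuousAt_fst m.2.1,
    ContinuousAt.eventually_lt continuousAt_fst s m.2.2] with y a b d using ⟨a, b, d⟩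

theorem sign (E : c.Ext δ) (m : z ∈ RK c.w (c.s2 - 1) δ c.S) (a : c.s2 ≤ z.1) :
    (0 < c.F z ↔ z.1 < c.S z.2) ∧ (c.F z = 0 ↔ z.1 = c.S z.2) := by
  have m2 := wk_sub h.w.1 one_le_two m.1
  rcases lt_trichotomy z.1 (c.S z.2) with u | u | u
  · have : 0 < c.F z := (h.fl.hit _ m2).2.2.2.1 z.1 ⟨a, u⟩
    exact ⟨iff_of_true this u, iff_of_false this.ne' u.ne⟩
  · have : c.F z = 0 := by
      rw [← h.F_S m.1, ← u]
    exact ⟨iff_of_false this.not_gt u.not_lt, iff_of_true this u⟩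
  · have t := (h.mono' E m.1 (by linarith [(h.S_lo m2).1, h.s2.1, h.s2.2]) u.le
      (by linarith [m.2.2, E.1])).2
    rw [h.F_S m.1] at t
    have : c.F z < 0 := by
      change c.F z - 0 ≤ _ at t
      linarith
    exact ⟨iff_of_false this.not_gt u.not_gt, iff_of_false this.ne u.ne'⟩

end Dt.Ok

end Vale.Agent.P354FE
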