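import Vale.Agent.P354FE.Num

/-!
FEND: from the flow to FAR.
-/

open scoped ContDiff
open Set Filter Topology

noncomputable section

namespace Vale.Agent.P354FE

open Vale.Agent.P354n (R4)
open Vale.Agent.P354H (X3)
open Vale.Agent.P354XE (Tw pb)
open Vale.Agent.P354YQ (SA JB JD Sol)
open Vale.Agent.P354SA

/-- The conclusion of BTJ. -/
def Bj (n : ℕ) (K C : ℝ) : Prop :=
  ∀ T L l m (f : ℝ → ℝ) g D Y (S : X3 → ℝ) x, 1 ≤ L → L ^ 2 ≤ T →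
    C ≤ T → Lc K m L g D Y (S x, x) → Jn (n + 1) K L Y (S x, x) →
    Rq n K T T⁻¹ L g (pb (Ph Y) g) Y (S x, x) → (Y (S x, x)).1 ∈ Icc (T / 2) (2 * T) →
    JD (n + 1) (fun ξ => f ((Y (S x, x)).1 + (Y (S x, x)).1 * ξ)) 0 (K * (Y (S x, x)).1) →
    |l - 1| ≤ 1 / 50 → |deriv f (Y (S x, x)).1 - 1| ≤ 1 / 50 →
    |(Wv g (pq Y (S x, x))).2.1 - 1 / 2| ≤ 1 / 50 → SA S x →
    (∀ᶠ y in 𝓝 x, fi l T f (Ph Y (S y, y)) = 0) →
    JD (n + 1) (fun ξ => S (x + (L / T) • ξ)) 0 (C * L) ∧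
      JB n (fun ξ => trv S (pb (Ph Y) g) (S (x + (L / T) • ξ), x + (L / T) • ξ)) 0 C ∧
      trv S (pb (Ph Y) g) (S x, x) ∈ Icc C⁻¹ C ∧
      JD n (fun y => ((Y (S y, y)).1, (Y (S y, y)).2.1)) x ((C * T) ^ n)

namespace Dt.Ok2

variable {c : Dt} {σ L K K3 B B0 C C0 CB K0 e δ δ0 ε sc : ℝ} (h : c.Ok2 σ L)
include h

theorem bj {x : X3} (R : ROOT) (m : x ∈ Wk c.w 2)
    (F : FS (c.n + 5) (c.C1 + 2) c.b B e σ δ c.T L c.r2 c.l c.f c.g c.D)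
    (t : Tl c.n K B K3) (j : Bj c.n K3 CB) (k : c.K ≤ K ∧ 4 + 2 * c.C1 ≤ K)
    (k3 : K ≤ K3 ∧ B ≤ K3) (hT : CB ≤ c.T) :
    JD (c.n + 1) (fun ξ => c.S (x + (L / c.T) • ξ)) 0 (CB * L) ∧
      JB c.n (fun ξ => trv c.S (pb (Ph c.Y) c.g)
        (c.S (x + (L / c.T) • ξ), x + (L / c.T) • ξ)) 0 CB ∧
      trv c.S (pb (Ph c.Y) c.g) (c.S x, x) ∈ Icc CB⁻¹ CB ∧
      JD c.n (fun y => ((c.Y (c.S y, y)).1, (c.Y (c.S y, y)).2.1)) x ((CB * c.T) ^ c.n) := by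
  have a := right_mem_Icc.2 (h.fl.hit x m).1.1
  have s1 := h.s2.1
  have s2 := h.s2.2
  have C1 := h.C1
  have lo : 3 / 2 * c.T ≤ c.S x := by linarith [(h.toOk.S_lo m).1]
  obtain ⟨r1, r2, -, -, r3⟩ := h.r_bd m a
  obtain ⟨g1, g2⟩ := h.toOk.gd_of m a
  have lc := h.lc_of m a k.2 (.inr ⟨rfl, lo⟩)
  obtain ⟨t1, t2⟩ := t _ _ _ _ _ _ lc (fp_ord (h.fp_of m a F (.inr ⟨rfl, lo⟩)) (by omega))
    (((h.fl.hit x m).2.2.2.2 _ a).1.jets.2.mono k.1)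
  have i0 : 0 ≤ c.T⁻¹ := inv_nonneg.2 (by linarith)
  exact j _ _ _ _ _ _ _ _ _ _ h.L.1 h.L.2 hT (lc_mono lc (by linarith) k3.1) t1
    (t2 _ _ (by linarith) i0 (by nlinarith [(r3 lo).2]) (by nlinarith [(r3 lo).1])
      (by nlinarith [(h.m_bd m a).2 lo])) (r3 lo)
    (((F.hf _ r2).1.ord (by omega)).mono (by gcongr; exact k3.2)) (h.l.trans (by norm_num))
    (h.toOk.f_bd g1 lo) (g2 lo).W.le (h.toOk.S_sa R m).1 (h.toOk.S_sa R m).2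

theorem fout (R : ROOT) (Lx : SLC) (E : c.Ext δ0)
    (F0 : FS 9 (c.C1 + 2) c.b B0 e σ δ c.T L c.r2 c.l c.f c.g c.D)
    (F : FS (c.n + 5) (c.C1 + 2) c.b B e σ δ c.T L c.r2 c.l c.f c.g c.D)
    (t0 : Tl 3 K0 B0 C0) (t : Tl c.n K B C) (t3 : Tl c.n K B K3) (j : Bj c.n K3 CB)
    (hs : |c.s2 - sc| ≤ c.C2) (h3 : c.s2 ≤ c.C3)
    (k0 : c.K0 ≤ K0 ∧ c.r2 + 2 * c.C1 + c.C2 + 5 ≤ K0)
    (k : c.K ≤ K ∧ c.r2 + 2 * c.C1 + c.C3 + 9 ≤ K) (k3 : K ≤ K3 ∧ B ≤ K3)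
    (hB : 1 ≤ CB ∧ CB ≤ c.T ∧ CB ≤ C) (hC : 2 * c.C1 ≤ C0 ∧ 12 * c.C1 ≤ C)
    (hP : 14 * c.C1 * c.P ≤ ε * c.T) (hS : ∀ x ∈ Wk c.w 2, |c.S x - 2 * c.T| ≤ 14 * c.P ∧
      |(c.Y (c.S x, x)).1 - c.T| ≤ 9 * c.P) :
    Fout c.n C0 c.C1 C ε c.T L c.w c.s2 sc c.r2 σ c.l δ0 c.f c.g c.D c.Y0 c.S c.Y := by
  have o := h.toOk
  have C1 := h.C1
  have P0 := h.P
  have s1 := h.s2.1
  have s2 := h.s2.2
  have L1 := h.L.1
  have r2 := h.r2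
  have hP' : 14 * c.P ≤ ε * c.T := by nlinarith
  have sub := fun y (m : y ∈ Wk c.w 1) => wk_sub h.w.1 one_le_two m
  have en := fun x (m : x ∈ Wk c.w 1) => right_mem_Icc.2 (h.fl.hit x (sub x m)).1.1
  obtain ⟨l1, l2⟩ := Lx c.C1 C1 c.P c.Y c.S c.η0 (Wk c.w 1) (wd_cvx _ _ _) (fun x m => by
    have lo : 3 / 2 * c.T ≤ c.S x := by linarith [(o.S_lo (sub x m)).1]
    obtain ⟨g1, g2⟩ := o.gd_of (sub x m) (en x m)
    exact o.sx_of g1 (o.S_sa R (sub x m)).1 ((h.fl.hit x (sub x m)).2.2.2.2 _ (en x m)).1.p.1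
      (.inr ⟨g2 lo, lo, 0, (o.S_sa R (sub x m)).2⟩))
    fun y i y' i' e => o.η0_bil (sub y i) (sub y' i') e
  have b := fun x (m : x ∈ Wk c.w 1) => h.bj R (sub x m) F t3 j ⟨k.1, by linarith [k.2]⟩ k3 hB.2.1
  refine ⟨fun z m u => (h.fl.eq z (sub _ m.1) (abs_lt.2 ⟨by linarith [m.2.1], by linarith⟩)).2,
    o.pull R E, o.inj R Lx E, fun z m => ⟨o.nul (o.rk E m).1, fun a => ?_⟩, fun x m => ?_,
    sl2_mono l1 hC.1 (by linarith) (by linarith) hC.2, fun x m => ⟨by linarith [(hS x (sub x m)).2],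
      h.η_bd (sub x m) (en x m), (b x m).2.2.2.mono (pow_le_pow_left₀ (by nlinarith [hB.1])
        (mul_le_mul_of_nonneg_right hB.2.2 (by linarith)) _)⟩⟩
  · have g := (o.rk E m).2.2 a
    refine ⟨g.r.le, ?_, (o.sign E m a).1, (o.sign E m a).2, fun u =>
      h.rz_of (sub _ m.1) ⟨a, u⟩ m.1 F0 F t0 t hs h3 k0 k⟩
    rw [← (h.fl.eq (c.s2, z.2) (sub _ m.1) (by simp)).2]
    exact g.η.le
  · obtain ⟨b1, b2, b3, -⟩ := b x m
    exact ⟨⟨by linarith [(hS x (sub x m)).1], fun a => (l2 x m a).trans (by nlinarith),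
      b1.mono (by gcongr; exact hB.2.2), b2.mono hB.2.2⟩, (o.S_sa R (sub x m)).1,
      (inv_anti₀ (by linarith [hB.1]) hB.2.2).trans b3.1, b3.2.trans hB.2.2⟩

end Dt.Ok2

theorem sqrt_bd {B ε T r : ℝ} (hB : 0 < B) (hε : 0 < ε) (hT : 2 * (B / ε) ^ 2 ≤ T)
    (hr : r ≤ 2 * T) : B * √r ≤ ε * T := by
  have T0 : 0 ≤ T := le_trans (by positivity) hT
  rw [← le_div_iff₀' hB, Real.sqrt_le_iff]
  refine ⟨by positivity, hr.trans ?_⟩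
  rw [div_pow, ← mul_div_assoc, div_le_iff₀ (by positivity)] at hT
  rw [div_pow, le_div_iff₀ (by positivity)]
  nlinarith

/-- **FEND.** -/
theorem fend : FEND := fun FL J RP R BT Lx σ hσ δ hδ C1 hC1 b hb B0 hB0 => by
  obtain ⟨r0, h1⟩ := FL σ hσ δ hδ C1 hC1 b hb B0 hB0
  refine ⟨(200 * C1 ^ 2)⁻¹, by positivity, max r0 (2 * C1 + 4), fun r2 hr C2 hC2 => ?_⟩
  have hr2 := (le_max_right _ _).trans hr
  obtain ⟨K0, hK0, h2⟩ := h1 r2 ((le_max_left _ _).trans hr) C2 hC2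
  obtain ⟨A0, a0, t0⟩ := ex_tl J RP 3 (K := K0 + (r2 + 2 * C1 + C2 + 5)) (by linarith) hB0
  refine ⟨A0, by linarith, fun n B hB C3 hC3 => ?_⟩
  obtain ⟨K, hK, h3⟩ := h2 n B hB C3 hC3
  obtain ⟨A, a1, t⟩ := ex_tl J RP n (K := K + (r2 + 2 * C1 + C3 + 9)) (by linarith) hB
  obtain ⟨CB, c1, j⟩ := BT n (A + B) (by linarith)
  refine ⟨A + CB + 12 * C1, by linarith, fun ε hε => ?_⟩
  obtain ⟨η, η0, η1, η2⟩ : ∃ η > 0, 700 * η ≤ 1 ∧ 14 * C1 * η ≤ ε := by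
    refine ⟨min ε 1 / (700 * C1), by positivity, ?_, ?_⟩
    · rw [← mul_div_assoc, div_le_one (by positivity)]
      linarith [min_le_right ε 1]
    · rw [← mul_div_assoc, div_le_iff₀ (by positivity)]
      nlinarith [min_le_left ε 1]
  obtain ⟨e0, he0, T0, h4⟩ := h3 η η0
  refine ⟨min e0 (η / B0), by positivity, |T0| + CB + (10 * C3 + 10) + (r2 + C3 + C1) / η +
    2 * (B0 / η) ^ 2 + 200 * B0, fun w hw e he T L s2 sc l f g D Y0 hT hL hL2 hs hsc F0 F X => ?_⟩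
  have p1 := abs_nonneg T0
  have p2 : 0 ≤ (r2 + C3 + C1) / η := div_nonneg (by linarith) η0.le
  have p3 : 0 ≤ 2 * (B0 / η) ^ 2 := by positivity
  have q1 : r2 + C3 + C1 ≤ η * T := by
    rw [← div_le_iff₀' η0]
    linarith
  have q2 : B0 * e ≤ η := (le_div_iff₀' (by linarith)).1 (he.2.trans (min_le_right _ _))
  have q3 : e ≤ η := by nlinarith [he.1]
  have T0' : 0 < T := by linarith
  have q4 : η * T ≤ T / 700 := by nlinarith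
  obtain ⟨Ω, Y, S, fl⟩ := h4 w e ⟨he.1, he.2.trans (min_le_left _ _)⟩ T L s2 l f g D Y0
    (by linarith [le_abs_self T0]) hs F0 F X
  have hS : ∀ x ∈ Wk w 2, |S x - 2 * T| ≤ 14 * (η * T) ∧ |(Y (S x, x)).1 - T| ≤ 9 * (η * T) :=
    fun x m => by
      obtain ⟨b1, -, b3, -, b5⟩ := fl.hit x m
      obtain ⟨u, v⟩ := b5 _ (right_mem_Icc.2 b1.1)
      obtain ⟨u1, -⟩ := abs_le.1 u.r
      obtain ⟨-, v2⟩ := abs_le.1 v
      simp only [rb] at u1 v2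
      have r1 : r2 / 2 ≤ (Y (S x, x)).1 := by linarith [b1.1]
      have r3 : (Y (S x, x)).1 ≤ 2 * T := by linarith [b1.2, hs.1]
      refine s_est b3 v ((F0.hf _ r1).2.2.trans ?_) (F0.hl.trans q3) hs b1 q1 (by linarith) T0'.le
      have v3 := sqrt_bd (B := B0) (by linarith) η0 (by linarith) r3
      have v4 := mul_le_mul q2 r3 (by linarith) η0.le
      rw [mul_add, ← mul_assoc]
      linarith
  let c : Dt := ⟨n, C1, C2, C3, K0, K, η * T, b, T, w, s2, r2, l, f, g, D, Ω, Y0, Y, S⟩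
  have h : c.Ok2 σ L := by
    refine ⟨⟨fl, X, ⟨F0.met.1, F0.met.2.1⟩, hC1, ⟨hw.1, ?_⟩, mul_pos η0 T0', ⟨hs.1, ?_⟩, hr2,
      F0.hl.trans (by linarith), fun r (i : r2 / 2 ≤ r) => ⟨sa_f (by linarith) (F0.hf r i).1.sm,
        fun (u : T / 2 ≤ r) => (F0.hf r i).2.1.trans ?_⟩,
      fun x m => (hS x m).1.trans ?_⟩, hb, hσ, ⟨hL, hL2⟩, ?_⟩
    · exact (le_inv_mul_iff₀ (by positivity)).1 (by simpa using hw.2)
    · change 10 * s2 + 10 ≤ T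
      linarith [hs.2]
    · have : B0 * r⁻¹ ≤ 1 / 100 := by
        rw [← div_eq_mul_inv, div_le_iff₀ (by linarith)]
        linarith
      linarith
    · change _ ≤ T / 50
      linarith
    · change r2 + C1 ≤ T / 2
      linarith
  obtain ⟨δ0, E⟩ := h.toOk.ex_ext R
  exact ⟨δ0, E.1, S, Y, h.fout R Lx E F0 F (t0 _ le_rfl) (t _ (by linarith))
    (t (A + B) (by linarith)) j hsc hs.2
    ⟨le_add_of_nonneg_right (by linarith), le_add_of_nonneg_left (by linarith)⟩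
    ⟨le_add_of_nonneg_right (by linarith), le_add_of_nonneg_left (by linarith)⟩
    ⟨by linarith, by linarith⟩ ⟨c1, (by linarith : CB ≤ T), by linarith⟩
    ⟨(by linarith : 2 * C1 ≤ A0), (by linarith : 12 * C1 ≤ _)⟩
    (by change 14 * C1 * (η * T) ≤ ε * T; nlinarith) hS⟩

end Vale.Agent.P354FE
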