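import Vale.Agent.P354FE.Inj

/-!
FEND, third part: monotonicity in the constants, elementary estimates, and the local bounds.
-/

open scoped ContDiff
open Set Filter Topology

noncomputable section

namespace Vale.Agent.P354FE

open Vale.Agent.P354n (R4)
open Vale.Agent.P354H (X3)
open Vale.Agent.P354XE (Tw pb)
open Vale.Agent.P354YQ (SA JB JD Sol)
open Vale.Agent.P354SA

theorem jb1 (x : ℝ) : 1 ≤ jb x := Real.one_le_sqrt.2 (by nlinarith)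

theorem jb2 (x : ℝ) : |x| ≤ jb x := Real.abs_le_sqrt (by linarith)

theorem jb3 (x : ℝ) : jb x ≤ 1 + |x| :=
  Real.sqrt_le_iff.2 ⟨by positivity, by nlinarith [sq_abs x, abs_nonneg x]⟩

theorem jb4 {u v σ : ℝ} (h : |u - v| ≤ 1) (hσ : σ ∈ Ioc (1 : ℝ) 2) :
    jb v ^ (-σ) ≤ 9 * jb u ^ (-σ) := by
  have u1 := jb1 u
  have v1 := jb1 v
  have a : jb u ≤ 3 * jb v := by linarith [jb3 u, jb2 v, abs_sub_abs_le_abs_sub u v]
  have b := Real.rpow_le_rpow (by linarith) a (zero_le_one.trans hσ.1.le)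
  have d := Real.rpow_le_rpow_of_exponent_le (by norm_num : (1 : ℝ) ≤ 3) hσ.2
  have p := Real.rpow_pos_of_pos (by linarith : 0 < jb u) σ
  have q := Real.rpow_pos_of_pos (by linarith : 0 < jb v) σ
  rw [Real.mul_rpow (by norm_num) (by linarith)] at b
  rw [Real.rpow_two] at d
  rw [Real.rpow_neg (by linarith), Real.rpow_neg (by linarith), ← div_eq_mul_inv, inv_eq_one_div,
    div_le_div_iff₀ q p]
  nlinarith

theorem jb5 (u : ℝ) {σ : ℝ} (hσ : 1 ≤ σ) : 0 ≤ jb u ^ (-σ) ∧ jb u ^ (-σ) ≤ (jb u)⁻¹ :=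
  ⟨Real.rpow_nonneg (by linarith [jb1 u]) _, Real.rpow_neg_one (jb u) ▸
    Real.rpow_le_rpow_of_exponent_le (jb1 u) (by linarith)⟩

theorem s_est {S T s2 r r2 C1 C3 ε l y : ℝ} (h0 : l * (T - S) + y = 0)
    (h1 : |r - (r2 + (S - s2) / 2)| ≤ C1 + ε * T) (h2 : |y - r| ≤ 3 * (ε * T)) (h3 : |l - 1| ≤ ε)
    (h4 : s2 ∈ Icc 0 C3) (h5 : S ∈ Icc s2 (3 * T)) (h6 : r2 + C3 + C1 ≤ ε * T) (h7 : 0 ≤ r2)
    (h8 : 0 ≤ T) : |S - 2 * T| ≤ 14 * (ε * T) ∧ |r - T| ≤ 9 * (ε * T) := by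
  have a : |(l - 1) * (T - S)| ≤ ε * (2 * T) := by
    rw [abs_mul]
    exact mul_le_mul h3 (abs_le.2 ⟨by linarith [h5.2], by linarith [h5.1, h4.1]⟩) (abs_nonneg _)
      ((abs_nonneg _).trans h3)
  obtain ⟨a1, a2⟩ := abs_le.1 a
  obtain ⟨b1, b2⟩ := abs_le.1 h1
  obtain ⟨c1, c2⟩ := abs_le.1 h2
  have := h4.1
  have := h4.2
  refine ⟨abs_le.2 ⟨?_, ?_⟩, abs_le.2 ⟨?_, ?_⟩⟩ <;> nlinarith

theorem sa_f {f : ℝ → ℝ} {r : ℝ} (hr : r ≠ 0) (h : SA (fun ξ => f (r + r * ξ)) 0) : SA f r :=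
  (SA.comp (u := fun ξ => f (r + r * ξ)) (f := fun y => (y - r) / r) (by simpa using h)
    (.of (by fun_prop))).congr (.of_forall fun y => by
      congr 1
      field_simp
      ring)

section

variable {n n' : ℕ} {B C C' C0 K K' r rc m m0 l : ℝ} {g g' : Tw} {D : Set R4} {Y : R4 → E5}
  {z : R4}

theorem fp_ord {q : Q6} (h : Fp n B m l g q) (e : n' ≤ n) : Fp n' B m l g q :=
  ⟨h.hm.ord e, ⟨h.c.1.ord e, h.c.2⟩, fun a b => ⟨(h.G a b).1.ord e, (h.G a b).2.ord e⟩, h.pos,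
    fun a => (h.z a).ord e, h.A.ord e, fun i j k o => (h.cur i j k o).ord e⟩

theorem lc_mono (h : Lc K m l g D Y z) (h0 : 0 < K) (e : K ≤ K') : Lc K' m l g D Y z :=
  ⟨h.met, h.sol, ⟨h.par.1, h.par.2.1, h.par.2.2.1, h.par.2.2.2.1.trans e, h.par.2.2.2.2⟩,
    ⟨(inv_anti₀ h0 e).trans h.kap.1, h.kap.2.trans e⟩, fun y => (h.inv y).trans (by gcongr)⟩

theorem rq_mono (h : Rq n C r m l g g' Y z) (h0 : 0 < C) (e : C ≤ C') (hr : 0 < r) (hm : 0 ≤ m) :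
    Rq n C' r m l g g' Y z :=
  have i := inv_anti₀ h0 e
  ⟨⟨i.trans h.pos.1, le_trans (by gcongr) h.pos.2.1, h.pos.2.2⟩,
    ⟨h.one.1.mono e, h.one.2.1.mono e, fun a => (h.one.2.2.1 a).mono e,
      fun a b => (h.one.2.2.2 a b).mono (by gcongr)⟩,
    h.dO.mono (by gcongr), h.d0.mono (by gcongr), fun a => (h.d1 a).mono (by gcongr),
    fun a b => (h.dg a b).mono (by gcongr), fun a b => (h.chi a b).mono (by gcongr),
    fun i j k o => (h.cur i j k o).mono (by gcongr), fun a b => (h.two a b).mono (by gcongr),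
    h.wr.mono (by gcongr),
    ⟨h.lr.1.mono e, h.lr.2.1.trans (by gcongr), h.lr.2.2.trans (by gcongr)⟩⟩

theorem cl_jb {f : R4 → ℝ} (h : Cl n 1 1 f z C) : JB n f z C := by
  have e : (fun ξ => f (dl 1 1 z ξ)) = fun ξ => f (ξ + z) := funext fun ξ => by
    simp [dl, add_comm]
  rw [Cl, e] at h
  refine ⟨(SA.comp (u := fun ξ => f (ξ + z)) (f := fun y => y - z) (by simpa using h.sm)
    (.of (by fun_prop))).congr (.of_forall fun y => by simp), fun i k => ?_⟩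
  have := h.le i k
  rwa [iteratedFDeriv_comp_add_right, zero_add] at this

theorem rp_of (h : Rq n C r m l g g' Y z) (h0 : Rq 3 C0 rc m0 1 g g' Y z) (N : Nul g' z)
    (hc : 1 ≤ rc) : Rp n C0 C r m l rc g' z :=
  ⟨N, h.pos, h.one, h.dO, h.d0, h.d1, h.dg, h.chi, h.cur, cl_jb h0.one.2.1,
    fun a => cl_jb (h0.one.2.2.1 a), fun a b => ⟨(cl_jb (h0.two a b)).mono
      (div_le_self h0.one.1.nonneg (one_le_pow₀ hc)), (cl_jb (h0.two a b)).zero⟩⟩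

theorem sl2_mono {P P' C0' : ℝ} {W : Set X3} {ρ : X3 → ℝ} {η : X3 → Y2} (h : Sl2 C0 P K W ρ η)
    (e0 : C0 ≤ C0') (e1 : P ≤ P') (h0 : 0 < K) (e2 : K ≤ K') : Sl2 C0' P' K' W ρ η :=
  ⟨h.sm, fun x i => ⟨(h.lip x i).1.trans e0, fun y => ((h.lip x i).2 y).trans (by gcongr)⟩,
    fun x i x' i' e => (h.bil x i x' i' e).trans (by gcongr), fun x i =>
      let ⟨κ, a, p, b, d⟩ := h.form x i
      ⟨κ, ⟨(inv_anti₀ h0 e2).trans a.1, a.2.trans e2⟩, p, b.trans e1, d⟩⟩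

/-- JNT and RPF together. -/
def Tl (n : ℕ) (K B C : ℝ) : Prop := ∀ m l g D Y z, Lc K m l g D Y z →
  Fp (n + 2) B m l g (pq Y z) → JD (n + 1) (fun x => nz Y z (z.1, x)) z.2 K →
  Jn (n + 1) C l Y z ∧ ∀ r' m', 0 < r' → 0 ≤ m' → (Y z).1 ≤ K * r' → r' ≤ K * (Y z).1 →
    m ≤ K * m' → Rq n C r' m' l g (pb (Ph Y) g) Y z

theorem ex_tl (J : JNT) (R : RPF) (n : ℕ) (hK : 1 ≤ K) (hB : 1 ≤ B) :
    ∃ C0 ≥ K, ∀ C ≥ C0, Tl n K B C := by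
  obtain ⟨a, a1, ha⟩ := J (n + 1) K B
  obtain ⟨b, b1, hb⟩ := R n (K + a) (by linarith) B hB
  refine ⟨K + a + b, by linarith, fun C e m l g D Y z h1 h2 h3 => ?_⟩
  have j := ha m l g D Y z h1 h2.hm h3
  have r1 := h1.par.1
  exact ⟨j.mono (by linarith), fun r' m' p q u v w => rq_mono (hb m l r' m' g D Y z
    (lc_mono h1 (by linarith) (by linarith)) (j.mono (by linarith)) h2 (by nlinarith)
    (by nlinarith) (by nlinarith)) (by linarith) (by linarith) p q⟩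

end

namespace Dt

/-- The remaining hypotheses. -/
structure Ok2 (c : Dt) (σ L : ℝ) : Prop extends c.Ok where
  b : 1 ≤ c.b
  σ : σ ∈ Ioc 1 2
  L : 1 ≤ L ∧ L ^ 2 ≤ c.T
  rT : c.r2 + c.C1 ≤ c.T / 2

namespace Ok2

variable {c : Dt} {σ L s l K B C C0 : ℝ} (h : c.Ok2 σ L) {x : X3} (m : x ∈ Wk c.w 2)
  (a : s ∈ Icc c.s2 (c.S x))
include h m a

theorem r_bd : 1 ≤ (c.Y (s, x)).1 ∧ c.r2 / 2 ≤ (c.Y (s, x)).1 ∧ s - c.s2 ≤ 3 * (c.Y (s, x)).1 ∧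
    (c.Y (s, x)).1 ≤ c.r2 + c.C1 + 101 / 200 * (s - c.s2) ∧
    (3 / 2 * c.T ≤ s → (c.Y (s, x)).1 ∈ Icc (c.T / 2) (2 * c.T)) := by
  obtain ⟨u, v⟩ := abs_le.1 ((h.fl.hit x m).2.2.2.2 s a).1.r
  simp only [rb] at u v
  have := h.r2
  have := h.C1
  have := a.1
  have := a.2
  have := h.s2.1
  have := h.s2.2
  have := h.rT
  have := (h.toOk.S_lo m).2
  refine ⟨?_, ?_, ?_, ?_, fun _ => ⟨?_, ?_⟩⟩ <;> linarith

theorem η_bd : ‖(c.Y (s, x)).2.1‖ ≤ c.C1 + 1 := by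
  have u := (h.toOk.gd_of m a).1.η
  have v : ‖c.η0 x‖ ≤ c.C1 := by
    rw [η0, (h.fl.eq (c.s2, x) m (by simp)).2]
    exact (norm_fst_le _).trans (h.ex.strip (c.s2, x) m (by simp)).2.2.2.2.2.1
  have w : (100 * c.C1)⁻¹ ≤ 1 := inv_le_one_of_one_le₀ (by linarith [h.C1])
  linarith [norm_le_insert' (c.Y (s, x)).2.1 (c.η0 x)]

theorem m_bd : mz c.T σ (Ph c.Y (s, x)) ≤ 2 ∧
    (3 / 2 * c.T ≤ s → mz c.T σ (Ph c.Y (s, x)) ≤ 4 * c.T⁻¹) := by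
  obtain ⟨r1, -, -, -, r2⟩ := h.r_bd m a
  have j := (jb5 (c.T - s) h.σ.1.le).2
  have T0 : 0 < c.T / 2 := by linarith [h.s2.1, h.s2.2]
  have e : mz c.T σ (Ph c.Y (s, x)) = (c.Y (s, x)).1⁻¹ + jb (c.T - s) ^ (-σ) := rfl
  refine ⟨by linarith [inv_le_one_of_one_le₀ r1, inv_le_one_of_one_le₀ (jb1 (c.T - s))],
    fun t => ?_⟩
  have u := inv_anti₀ T0 (r2 t).1
  have v := inv_anti₀ T0 (show c.T / 2 ≤ jb (c.T - s) by
    linarith [jb2 (c.T - s), neg_abs_le (c.T - s)])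
  rw [inv_div, div_eq_mul_inv] at u v
  linarith

theorem fp_of {N : ℕ} {e δ : ℝ} (F : FS N (c.C1 + 2) c.b B e σ δ c.T L c.r2 c.l c.f c.g c.D)
    (hl : l = 1 ∨ l = L ∧ 3 / 2 * c.T ≤ s) :
    Fp N B (mz c.T σ (Ph c.Y (s, x))) l c.g (pq c.Y (s, x)) := by
  obtain ⟨-, -, b3, b4, b5⟩ := h.fl.hit x m
  obtain ⟨-, r1, -, -, r2⟩ := h.r_bd m a
  obtain ⟨-, -, k1, k2⟩ := F.pt (pq c.Y (s, x)) r1 ((h.η_bd m a).trans (by linarith)) (by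
    rcases a.2.eq_or_lt with rfl | u
    exacts [b3.ge, (b4 s ⟨a.1, u⟩).le]) (b5 s a).1.p.2
  rcases hl with rfl | ⟨rfl, t⟩
  exacts [k1, k2 t (r2 t)]

theorem lc_of (hK : 4 + 2 * c.C1 ≤ K) (hl : l = 1 ∨ l = L ∧ 3 / 2 * c.T ≤ s) :
    Lc K (mz c.T σ (Ph c.Y (s, x))) l c.g c.D c.Y (s, x) := by
  have k := (h.toOk.gd_of m a).1
  obtain ⟨r1, -⟩ := h.r_bd m a
  obtain ⟨m1, m2⟩ := h.m_bd m a
  have C := h.C1
  have L1 := h.L.1
  have T0 : 0 < c.T := by linarith [h.s2.1, h.s2.2]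
  refine ⟨h.met, (h.fl.opn.eventually_mem k.mem).mono fun y i => ⟨(h.fl.sol y i).1,
    (h.fl.sol y i).2.1, (h.toOk.kv_eq i).1⟩, ⟨r1, le_add_of_nonneg_right (jb5 _ h.σ.1.le).1, ?_, ?_,
      ((h.fl.hit x m).2.2.2.2 s a).1.p.2.trans (div_le_self (by linarith) h.b)⟩,
    ⟨(inv_anti₀ (by linarith) (by linarith)).trans k.kap.1.le, by linarith [k.kap.2]⟩,
    fun y => (h.toOk.inv_of k y).trans (by gcongr; linarith)⟩
  · rcases hl with rfl | ⟨rfl, -⟩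
    exacts [le_rfl, L1]
  · rcases hl with rfl | ⟨rfl, t⟩
    · linarith
    · have u : l * c.T⁻¹ ≤ 1 := by
        rw [← div_eq_mul_inv, div_le_one T0]
        nlinarith [h.L.2]
      nlinarith [mul_le_mul_of_nonneg_left (m2 t) (by linarith : 0 ≤ l)]

theorem rz_of {B0 e δ sc K0 : ℝ} (m1 : x ∈ Wk c.w 1)
    (F0 : FS 9 (c.C1 + 2) c.b B0 e σ δ c.T L c.r2 c.l c.f c.g c.D)
    (F : FS (c.n + 5) (c.C1 + 2) c.b B e σ δ c.T L c.r2 c.l c.f c.g c.D)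
    (t0 : Tl 3 K0 B0 C0) (t : Tl c.n K B C) (hs : |c.s2 - sc| ≤ c.C2) (h3 : c.s2 ≤ c.C3)
    (k0 : c.K0 ≤ K0 ∧ c.r2 + 2 * c.C1 + c.C2 + 5 ≤ K0)
    (k : c.K ≤ K ∧ c.r2 + 2 * c.C1 + c.C3 + 9 ≤ K) :
    Rz c.n C0 C c.T L sc σ (pb (Ph c.Y) c.g) (s, x) := by
  obtain ⟨r1, -, r3, r4, -⟩ := h.r_bd m a
  have j := ((h.fl.hit x m).2.2.2.2 s a).1.jets
  have C := h.C1
  have R := h.r2
  have s0 := h.s2.1
  have a1 := a.1
  have c2 := (abs_nonneg _).trans hs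
  obtain ⟨q1, q2⟩ := abs_le.1 hs
  have w1 : c.w ≤ 1 / 200 := by
    nlinarith [h.w.2, mul_le_mul_of_nonneg_right (one_le_pow₀ (n := 2) C) h.w.1.le]
  have v1 : -1 ≤ x.1 := by linarith [m1.1.1]
  have v2 : x.1 ≤ 1 := by linarith [m1.1.2]
  have hl : (if 5 / 3 * c.T ≤ s - x.1 then L else 1) = 1 ∨
      (if 5 / 3 * c.T ≤ s - x.1 then L else 1) = L ∧ 3 / 2 * c.T ≤ s := by
    split_ifs with u
    exacts [.inr ⟨rfl, by linarith [h.s2.2]⟩, .inl rfl]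
  have u1 := jb1 (s - x.1)
  have u2 := (le_abs_self _).trans (jb2 (s - x.1))
  have u3 : jb (s - x.1) ≤ K * (c.Y (s, x)).1 := by
    have : |s - x.1| ≤ s + 1 := abs_le.2 ⟨by linarith, by linarith⟩
    nlinarith [jb3 (s - x.1), k.2]
  have p1 := jb1 (s - x.1 - sc)
  have p2 := (le_abs_self _).trans (jb2 (s - x.1 - sc))
  have o1 := (jb5 (s - x.1 - c.T) h.σ.1.le).1
  have o2 := (jb5 (c.T - s) h.σ.1.le).1
  have i0 : 0 ≤ (jb (s - x.1))⁻¹ := by positivity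
  have e : mz c.T σ (Ph c.Y (s, x)) = (c.Y (s, x)).1⁻¹ + jb (c.T - s) ^ (-σ) := rfl
  have mz0 : 0 ≤ mz c.T σ (Ph c.Y (s, x)) := by
    rw [e]
    positivity
  refine rp_of ((t _ _ _ _ _ _ (h.lc_of m a (by linarith [k.2]) hl)
    (fp_ord (h.fp_of m a F hl) (by omega)) (j.2.mono k.1)).2 _ _ (by linarith)
      (add_nonneg i0 o1) (by nlinarith [k.2]) u3 ?_)
    ((t0 _ _ _ _ _ _ (h.lc_of m a (by linarith [k0.2]) (.inl rfl))
      (fp_ord (h.fp_of m a F0 (.inl rfl)) (by omega)) (j.1.mono k0.1)).2 _ _ (by linarith) mz0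
      (by nlinarith [k0.2]) ?_ (by nlinarith [k0.2]))
    (h.toOk.nul (h.toOk.gd_of m a).1.mem) p1
  · have b1 : (c.Y (s, x)).1⁻¹ ≤ K * (jb (s - x.1))⁻¹ := by
      rw [← div_eq_mul_inv, inv_eq_one_div, div_le_div_iff₀ (by linarith) (by linarith)]
      linarith
    have b2 := jb4 (u := s - x.1 - c.T) (v := s - c.T) (abs_le.2 ⟨by linarith, by linarith⟩) h.σ
    have b3 : jb (c.T - s) = jb (s - c.T) := by rw [jb, jb, ← neg_sub, neg_sq]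
    rw [e, mm, b3]
    nlinarith [k.2]
  · have : |s - x.1 - sc| ≤ s - c.s2 + c.C2 + 1 := abs_le.2 ⟨by linarith, by linarith⟩
    nlinarith [jb3 (s - x.1 - sc), k0.2]

end Ok2

end Dt

end Vale.Agent.P354FE
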